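import Vale.Agent.P050.H936.Spec2
import Vale.Agent.P050.M18.Val

/-!
The entropy side of the graphs with series-parallel parts: [E2].
-/

set_option linter.unusedSectionVars false

namespace Vale.Agent.P050.H340.Sub

open Finset Vale.Agent.P050.Cart Vale.Agent.P050.Join Vale.Agent.P050.M18 Vale.Agent.P050.H546
open Vale.Agent.P050.H936

/-- [E2] -/
theorem ent2_of (h1 : Star2Stmt) (h2 : Ker2Stmt) (h3 : GInfStmt) : Ent2Stmt := by
  classical
  intro V E U _ _ _ _ _ _ s t hst m μ hm g hok hlen A Q hE hA hQA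
  obtain ⟨e0⟩ := (inferInstance : Nonempty E)
  obtain ⟨hnn, htot, hpair⟩ := h1 V U Q hE m μ hm
  obtain ⟨-, hle, -, -⟩ := h3 U Q hE
  let w : (V → U) → ℝ := fun x => ∏ e, (g e).wt A (x (s e)) (x (t e))
  have hker := fun e => h2 U A Q hE hA hQA μ (g e) (hok e)
  have hw : ∀ x, 0 ≤ w x := fun x => prod_nonneg fun e _ => (hker e).1 _ _
  have hlaw : ∀ e, mar (star2 Q m) (fun ω => (ω.2 (s e), ω.2 (t e))) = EE Q (g e).len := by
    intro e
    rw [hlen e]
    exact (hpair (s e) (t e) (hst e)).1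
  have hse : ∀ ω, star2 Q m ω ≠ 0 → ∀ e, (g e).wt A (ω.2 (s e)) (ω.2 (t e)) ≠ 0 := by
    intro ω h0 e
    refine (hker e).2.1 (ω.2 (s e), ω.2 (t e)) ?_
    rw [← hlaw e]
    exact mar_ne_zero hnn (fun ω => (ω.2 (s e), ω.2 (t e))) h0
  have hs : ∀ ω, star2 Q m ω ≠ 0 → w ω.2 ≠ 0 := fun ω h0 =>
    prod_ne_zero_iff.2 fun e _ => hse ω h0 e
  obtain ⟨hpos, key⟩ := ent_log_sum hnn htot (fun ω => ω.2) w hw hs
  refine ⟨hpos, ?_⟩
  have hlog : ∑ ω, star2 Q m ω * Real.log (w ω.2) = ∑ e, ∑ p, EE Q (g e).len p *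
      Real.log ((g e).wt A p.1 p.2) := by
    have e1 : ∀ ω, star2 Q m ω * Real.log (w ω.2) = ∑ e, star2 Q m ω *
        Real.log ((g e).wt A (ω.2 (s e)) (ω.2 (t e))) := by
      intro ω
      by_cases h0 : star2 Q m ω = 0
      · simp [h0]
      rw [← mul_sum]
      congr 1
      exact Real.log_prod fun e _ => hse ω h0 e
    rw [sum_congr rfl fun ω _ => e1 ω, sum_comm]
    refine sum_congr rfl fun e _ => ?_
    rw [← hlaw e]
    exact (sum_mar (star2 Q m) (fun ω => (ω.2 (s e), ω.2 (t e)))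
      (fun p => Real.log ((g e).wt A p.1 p.2))).symm
  have hsum : ∑ e, (((g e).size : ℝ) * hQ Q - (2 * ((g e).size : ℝ) - (g e).num - 2) * aQ Q -
      hh Q (g e).len + ((g e).gain μ : ℝ) * (2 * aQ Q - hh Q μ)) ≤
      ∑ ω, star2 Q m ω * Real.log (w ω.2) := by
    rw [hlog]
    exact sum_le_sum fun e _ => (hker e).2.2
  have hhe : ∑ e, hh Q (g e).len ≤ hh Q (m (s e0) + m (t e0)) +
      ((Fintype.card E : ℝ) - 1) * (2 * aQ Q) := by
    rw [← Finset.add_sum_erase univ _ (mem_univ e0), hlen e0]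
    have h4 : ∑ e ∈ univ.erase e0, hh Q (g e).len ≤
        ∑ _e ∈ univ.erase e0, 2 * aQ Q := sum_le_sum fun e _ => hle _
    rw [sum_const, nsmul_eq_mul, card_erase_of_mem (mem_univ e0), card_univ,
      Nat.cast_sub (Fintype.card_pos_iff.2 ⟨e0⟩), Nat.cast_one] at h4
    linarith
  have hent := (hpair (s e0) (t e0) (hst e0)).2
  have hnr : ng s t g A = ∑ x, w x := rfl
  rw [hnr]
  have e2 : ∑ e, (((g e).size : ℝ) * hQ Q - (2 * ((g e).size : ℝ) - (g e).num - 2) * aQ Q -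
      hh Q (g e).len + ((g e).gain μ : ℝ) * (2 * aQ Q - hh Q μ)) =
      (∑ e, ((g e).size : ℝ)) * hQ Q -
      (2 * ∑ e, ((g e).size : ℝ) - ∑ e, ((g e).num : ℝ) - 2 * Fintype.card E) * aQ Q -
      ∑ e, hh Q (g e).len + (∑ e, ((g e).gain μ : ℝ)) * (2 * aQ Q - hh Q μ) := by
    simp only [sum_add_distrib, sum_sub_distrib, ← sum_mul, ← mul_sum, sum_const, card_univ,
      nsmul_eq_mul]
    ring
  have e3 : (∑ e, (2 * ((g e).size : ℝ) - ((g e).num : ℝ))) =
      2 * ∑ e, ((g e).size : ℝ) - ∑ e, ((g e).num : ℝ) := by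
    simp only [sum_sub_distrib, ← mul_sum]
  rw [e2] at hsum
  rw [e3]
  have key' : ent (star2 Q m) (fun ω => ω.2) + ∑ ω, star2 Q m ω * Real.log (w ω.2) ≤
      Real.log (∑ x, w x) := key
  nlinarith [key', hsum, hhe, hent]

end Vale.Agent.P050.H340.Sub
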