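import Vale.Agent.P050.H936.Spec
import Vale.Agent.P050.H23.GI

/-!
The star law: a stationary vertex `z` and independent ends `x_v` of walks of length `m v`.
-/

set_option linter.unusedSectionVars false

namespace Vale.Agent.P050.H340.Sub

open Finset Vale.Agent.P050.Cart Vale.Agent.P050.Join Vale.Agent.P050.M18 Vale.Agent.P050.H546

section prod

variable {V U : Type} [Fintype V] [DecidableEq V] [Fintype U]

theorem sum_prod_pi (k : V → U → ℝ) : ∑ x : V → U, ∏ w, k w (x w) = ∏ w, ∑ t, k w t := by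
  classical
  have := Finset.prod_univ_sum (fun _ : V => (univ : Finset U)) k
  rw [Fintype.piFinset_univ] at this
  exact this.symm

theorem sum_prod_one (k : V → U → ℝ) (v : V) (F : U → ℝ) :
    ∑ x : V → U, (∏ w, k w (x w)) * F (x v) =
      (∏ w ∈ univ.erase v, ∑ t, k w t) * ∑ t, k v t * F t := by
  have h1 : ∀ x : V → U, (∏ w, k w (x w)) * F (x v) =
      ∏ w, (k w (x w) * if w = v then F (x w) else 1) := by
    intro x
    rw [Finset.prod_mul_distrib, Finset.prod_ite_eq' univ v (fun w => F (x w)),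
      if_pos (mem_univ v)]
  simp_rw [h1]
  rw [sum_prod_pi (fun w t => k w t * if w = v then F t else 1),
    ← Finset.prod_erase_mul univ _ (mem_univ v)]
  congr 1
  · refine prod_congr rfl fun w hw => ?_
    rw [mem_erase] at hw
    simp [hw.1]
  · simp

theorem sum_prod_two (k : V → U → ℝ) {u v : V} (huv : u ≠ v)
    (hk : ∀ w, w ≠ u → w ≠ v → ∑ t, k w t = 1) (F : U → U → ℝ) :
    ∑ x : V → U, (∏ w, k w (x w)) * F (x u) (x v) = ∑ s, ∑ t, k u s * k v t * F s t := by
  classical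
  have h1 : ∀ x : V → U, (∏ w, k w (x w)) * F (x u) (x v) = ∑ s,
      (∏ w, (k w (x w) * if w = u then (if x w = s then (1 : ℝ) else 0) else 1)) * F s (x v) := by
    intro x
    have h2 : ∀ s, ∏ w, (k w (x w) * if w = u then (if x w = s then (1 : ℝ) else 0) else 1) =
        (∏ w, k w (x w)) * if x u = s then (1 : ℝ) else 0 := by
      intro s
      rw [Finset.prod_mul_distrib, Finset.prod_ite_eq' univ u
        (fun w => if x w = s then (1 : ℝ) else 0), if_pos (mem_univ u)]
    rw [Finset.sum_eq_single (x u)]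
    · rw [h2, if_pos rfl, mul_one]
    · intro s _ hs
      rw [h2, if_neg (Ne.symm hs), mul_zero, zero_mul]
    · intro h
      exact absurd (mem_univ _) h
  simp_rw [h1]
  rw [Finset.sum_comm]
  refine sum_congr rfl fun s _ => ?_
  rw [sum_prod_one (fun w t => k w t * if w = u then (if t = s then (1 : ℝ) else 0) else 1) v
    (fun t => F s t)]
  have h3 : ∏ w ∈ univ.erase v, ∑ t, (k w t * if w = u then (if t = s then (1 : ℝ) else 0) else 1) =
      k u s := by
    rw [Finset.prod_eq_single u]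
    · rw [Finset.sum_eq_single s]
      · simp
      · intro t _ ht
        simp [ht]
      · intro h
        exact absurd (mem_univ _) h
    · intro w hw hwu
      rw [mem_erase] at hw
      refine Eq.trans (sum_congr rfl fun t _ => ?_) (hk w hwu hw.1)
      rw [if_neg hwu, mul_one]
    · intro h
      exact absurd (mem_erase.2 ⟨huv, mem_univ _⟩) h
  rw [h3, mul_sum]
  refine sum_congr rfl fun t _ => ?_
  rw [if_neg huv.symm]
  ring

/-- the law of `z` and of conditionally independent variables `x_v` -/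
def sl (μ : U → ℝ) (K : V → U → U → ℝ) (ω : U × (V → U)) : ℝ := μ ω.1 * ∏ w, K w ω.1 (ω.2 w)

variable {μ : U → ℝ} {K : V → U → U → ℝ} (hμ : ∀ z, 0 ≤ μ z) (hK : ∀ v z t, 0 ≤ K v z t)
  (hK1 : ∀ z, μ z ≠ 0 → ∀ v, ∑ t, K v z t = 1)

include hμ hK in
theorem sl_nonneg (ω : U × (V → U)) : 0 ≤ sl μ K ω :=
  mul_nonneg (hμ _) (prod_nonneg fun _ _ => hK _ _ _)

include hK1 in
theorem sum_sl (F : U → ℝ) : ∑ ω, sl μ K ω * F ω.1 = ∑ z, μ z * F z := by
  rw [Fintype.sum_prod_type]
  refine sum_congr rfl fun z _ => ?_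
  by_cases h0 : μ z = 0
  · simp [sl, h0]
  have h1 : ∀ x : V → U, sl μ K (z, x) * F z = (∏ w, K w z (x w)) * (μ z * F z) := fun x => by
    unfold sl
    ring
  simp_rw [h1]
  rw [← Finset.sum_mul, sum_prod_pi (fun w => K w z), prod_congr rfl fun w _ => hK1 z h0 w]
  simp

include hK1 in
theorem sum_sl_one (v : V) (F : U → U → ℝ) : ∑ ω, sl μ K ω * F ω.1 (ω.2 v) =
    ∑ p : U × U, μ p.1 * K v p.1 p.2 * F p.1 p.2 := by
  rw [Fintype.sum_prod_type, Fintype.sum_prod_type]
  refine sum_congr rfl fun z _ => ?_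
  by_cases h0 : μ z = 0
  · simp [sl, h0]
  have h1 : ∀ x : V → U, sl μ K (z, x) * F z (x v) = (∏ w, K w z (x w)) * (μ z * F z (x v)) :=
    fun x => by
      unfold sl
      ring
  simp_rw [h1]
  rw [sum_prod_one (fun w => K w z) v (fun t => μ z * F z t), prod_congr rfl fun w _ => hK1 z h0 w,
    prod_const_one, one_mul]
  exact sum_congr rfl fun t _ => by ring

include hK1 in
theorem sum_sl_two {u v : V} (huv : u ≠ v) (F : U → U → ℝ) :
    ∑ ω, sl μ K ω * F (ω.2 u) (ω.2 v) =
      ∑ s, ∑ t, (∑ z, μ z * K u z s * K v z t) * F s t := by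
  rw [Fintype.sum_prod_type]
  have h2 : ∀ z, ∑ x : V → U, sl μ K (z, x) * F (x u) (x v) =
      ∑ s, ∑ t, μ z * K u z s * K v z t * F s t := by
    intro z
    by_cases h0 : μ z = 0
    · simp [sl, h0]
    have h1 : ∀ x : V → U, sl μ K (z, x) * F (x u) (x v) =
        (∏ w, K w z (x w)) * (μ z * F (x u) (x v)) := fun x => by
      unfold sl
      ring
    simp_rw [h1]
    rw [sum_prod_two (fun w => K w z) huv (fun w _ _ => hK1 z h0 w) (fun s t => μ z * F s t)]
    exact sum_congr rfl fun s _ => sum_congr rfl fun t _ => by ring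
  simp_rw [h2]
  rw [Finset.sum_comm]
  refine sum_congr rfl fun s _ => ?_
  rw [Finset.sum_comm]
  refine sum_congr rfl fun t _ => ?_
  rw [Finset.sum_mul]

include hK1 in
theorem sl_total (h1 : ∑ z, μ z = 1) : ∑ ω, sl μ K ω = 1 := by
  have := sum_sl (μ := μ) (K := K) hK1 fun _ => 1
  simp only [mul_one] at this
  rw [this, h1]

include hK1 in
theorem mar_sl_one (v : V) (p : U × U) :
    mar (sl μ K) (fun ω => (ω.1, ω.2 v)) p = μ p.1 * K v p.1 p.2 := by
  rw [mar_of_sum (P' := fun p : U × U => μ p.1 * K v p.1 p.2) (f' := fun p => p)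
    (fun F => sum_sl_one hK1 v fun a b => F (a, b)) p, mar_id]

include hK1 in
theorem mar_sl_two {u v : V} (huv : u ≠ v) (p : U × U) :
    mar (sl μ K) (fun ω => (ω.2 u, ω.2 v)) p = ∑ z, μ z * K u z p.1 * K v z p.2 := by
  rw [mar_of_sum (P' := fun p : U × U => ∑ z, μ z * K u z p.1 * K v z p.2) (f' := fun p => p)
    (fun F => by
      rw [sum_sl_two hK1 huv fun a b => F (a, b), Fintype.sum_prod_type]) p, mar_id]

include hμ hK hK1 in
/-- the entropy of the whole law -/
theorem ent_sl : ent (sl μ K) (fun ω => ω) = ent μ (fun z => z) +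
    ∑ v, (ent (fun p : U × U => μ p.1 * K v p.1 p.2) (fun p => p) - ent μ (fun z => z)) := by
  have e0 : ∀ ω : U × (V → U), sl μ K ω * Real.log (mar (sl μ K) (fun ω => ω) ω) =
      sl μ K ω * Real.log (μ ω.1) + ∑ v, sl μ K ω * Real.log (K v ω.1 (ω.2 v)) := by
    intro ω
    rw [mar_id]
    by_cases h0 : sl μ K ω = 0
    · simp [h0]
    have h1 : μ ω.1 ≠ 0 := left_ne_zero_of_mul h0
    have h2 : ∏ w, K w ω.1 (ω.2 w) ≠ 0 := right_ne_zero_of_mul h0
    rw [← Finset.mul_sum, ← mul_add]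
    congr 1
    show Real.log (μ ω.1 * ∏ w, K w ω.1 (ω.2 w)) = _
    rw [Real.log_mul h1 h2, Real.log_prod fun w hw => (prod_ne_zero_iff.1 h2) w hw]
  have e1 : ∀ v, ent (fun p : U × U => μ p.1 * K v p.1 p.2) (fun p => p) =
      - (∑ z, μ z * Real.log (μ z)) -
        ∑ p : U × U, μ p.1 * K v p.1 p.2 * Real.log (K v p.1 p.2) := by
    intro v
    rw [ent_eq]
    have e2 : ∀ p : U × U, μ p.1 * K v p.1 p.2 *
        Real.log (mar (fun p : U × U => μ p.1 * K v p.1 p.2) (fun p => p) p) =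
        μ p.1 * K v p.1 p.2 * Real.log (μ p.1) +
          μ p.1 * K v p.1 p.2 * Real.log (K v p.1 p.2) := by
      intro p
      rw [mar_id]
      by_cases h0 : μ p.1 * K v p.1 p.2 = 0
      · simp [h0]
      rw [Real.log_mul (left_ne_zero_of_mul h0) (right_ne_zero_of_mul h0)]
      ring
    rw [sum_congr rfl fun p _ => e2 p, sum_add_distrib]
    have e3 : ∑ p : U × U, μ p.1 * K v p.1 p.2 * Real.log (μ p.1) =
        ∑ z, μ z * Real.log (μ z) := by
      rw [Fintype.sum_prod_type]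
      refine sum_congr rfl fun z _ => ?_
      by_cases h0 : μ z = 0
      · simp [h0]
      have e4 : ∀ t, μ z * K v z t * Real.log (μ z) = K v z t * (μ z * Real.log (μ z)) :=
        fun t => by ring
      simp_rw [e4]
      rw [← Finset.sum_mul, hK1 z h0 v, one_mul]
    rw [e3]
    ring
  have e5 : ent μ (fun z => z) = - ∑ z, μ z * Real.log (μ z) := by
    rw [ent_eq]
    simp_rw [mar_id]
  rw [ent_eq, sum_congr rfl fun ω _ => e0 ω, sum_add_distrib, sum_sl hK1 fun z => Real.log (μ z),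
    sum_comm, sum_congr rfl fun v _ => sum_sl_one hK1 v fun z t => Real.log (K v z t)]
  simp_rw [e1, e5]
  rw [neg_add, ← sub_eq_add_neg, ← Finset.sum_neg_distrib]
  congr 1
  · rw [sub_eq_add_neg]
    congr 1
    rw [← Finset.sum_neg_distrib]
    exact sum_congr rfl fun v _ => by ring

end prod

section main

open Vale.Agent.P050.H936

variable {V U : Type} [Fintype V] [DecidableEq V] [Fintype U] [DecidableEq U] {Q : U × U → ℝ}

theorem row_one (hE : Edge Q) (j : ℕ) (z : U) (hz : mm Q z ≠ 0) : ∑ t, zp (nb Q) j z t = 1 := by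
  have h := congrFun (H23.EE_fst hE j) z
  rw [mar_prod_fst] at h
  have h1 : ∑ y, EE Q j (z, y) = mm Q z * ∑ t, zp (nb Q) j z t := by
    rw [mul_sum]
    rfl
  rw [h1] at h
  exact mul_left_cancel₀ hz (h.trans (mul_one _).symm)

theorem pair_law (hE : Edge Q) (i j : ℕ) (p : U × U) :
    ∑ z, mm Q z * zp (nb Q) i z p.1 * zp (nb Q) j z p.2 = EE Q (i + j) p := by
  obtain ⟨x, y⟩ := p
  show _ = mm Q x * zp (nb Q) (i + j) x y
  rw [zp_add, mul_sum]
  refine sum_congr rfl fun z _ => ?_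
  have h1 : mm Q z * zp (nb Q) i z x = mm Q x * zp (nb Q) i x z := H23.EE_sym hE i z x
  show mm Q z * zp (nb Q) i z x * zp (nb Q) j z y = _
  rw [h1]
  ring

/-- [S1] -/
theorem starStmt : StarStmt := by
  intro V U _ _ _ _ Q hE κ
  have hμ : ∀ z, 0 ≤ mm Q z := hE.mm_nn
  have hK : ∀ (v : V) z t, 0 ≤ zp (nb Q) (κ v + 2) z t := fun v z t =>
    zp_nonneg (fun a b => hE.nb_nn a b) _ z t
  have hK1 : ∀ z, mm Q z ≠ 0 → ∀ v : V, ∑ t, zp (nb Q) (κ v + 2) z t = 1 := fun z hz v =>
    row_one hE _ z hz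
  have hst : star Q κ = sl (mm Q) (fun v => zp (nb Q) (κ v + 2)) := rfl
  have hmu : ∑ z, mm Q z = 1 := by
    rw [← hE.tot, Fintype.sum_prod_type]
    rfl
  have hnn : ∀ ω, 0 ≤ star Q κ ω := fun ω => by
    rw [hst]
    exact sl_nonneg hμ hK ω
  refine ⟨hnn, ?_, ?_⟩
  · rw [hst]
    exact sl_total hK1 hmu
  intro u v huv
  have hpair : mar (star Q κ) (fun ω => (ω.2 u, ω.2 v)) = EE Q (κ u + κ v + 4) := by
    funext p
    rw [hst, mar_sl_two hK1 huv p, pair_law hE]
    congr 1
    omega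
  refine ⟨hpair, ?_⟩
  have ha : ent (mm Q) (fun z => z) = aQ Q := rfl
  have hv : ∀ w, ent (star Q κ) (fun ω => (ω.1, ω.2 w)) = hh Q (κ w + 2) := by
    intro w
    unfold hh
    refine ent_law fun p => ?_
    rw [hst, mar_sl_one hK1 w p, mar_id]
    rfl
  have hz : ent (star Q κ) (fun ω => ω.1) = aQ Q := by
    rw [← ha]
    refine ent_law fun a => ?_
    exact mar_of_sum (fun F => by rw [hst]; exact sum_sl hK1 F) a
  have htot : ent (star Q κ) (fun ω => ω) = aQ Q + ∑ w, (hh Q (κ w + 2) - aQ Q) := by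
    rw [hst, ent_sl hμ hK hK1, ha]
    rfl
  have h1 := subm hnn (A := fun ω => ω.2) (B := fun ω => (ω.1, ω.2 u, ω.2 v)) (C := fun ω => ω)
    (D := fun ω => (ω.2 u, ω.2 v))
    (fun x y h h' => by
      simp only [Prod.mk.injEq] at h'
      exact Prod.ext h'.1 h)
    (fun x y h => congrArg (fun q : V → U => (q u, q v)) h)
    (fun x y h => by
      simp only [Prod.mk.injEq] at h
      exact Prod.ext h.2.1 h.2.2)
  have h2 := subm hnn (A := fun ω => (ω.1, ω.2 u)) (B := fun ω => (ω.1, ω.2 v))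
    (C := fun ω => (ω.1, ω.2 u, ω.2 v)) (D := fun ω => ω.1)
    (fun x y h h' => by
      simp only [Prod.mk.injEq] at h h'
      exact Prod.ext h.1 (Prod.ext h.2 h'.2))
    (fun x y h => by simp only [Prod.mk.injEq] at h; exact h.1)
    (fun x y h => by simp only [Prod.mk.injEq] at h; exact h.1)
  have h3 : ent (star Q κ) (fun ω => (ω.2 u, ω.2 v)) = hh Q (κ u + κ v + 4) := by
    unfold hh
    refine ent_law fun p => ?_
    rw [hpair, mar_id]
  rw [htot, h3] at h1
  rw [hv, hv, hz] at h2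
  -- the other vertices
  have hmono : Monotone (hh Q) := monotone_nat_of_le_succ (H23.hh_mono hE)
  have h4 : ∀ w, h2Q Q - aQ Q ≤ hh Q (κ w + 2) - aQ Q := by
    intro w
    have h5 : hh Q 2 ≤ hh Q (κ w + 2) := hmono (by omega)
    rw [H23.hh_two hE] at h5
    linarith
  have h5 : ∑ w, (hh Q (κ w + 2) - aQ Q) = (hh Q (κ u + 2) - aQ Q) + ((hh Q (κ v + 2) - aQ Q) +
      ∑ w ∈ (univ.erase u).erase v, (hh Q (κ w + 2) - aQ Q)) := by
    rw [← Finset.add_sum_erase univ _ (mem_univ u), ← Finset.add_sum_erase (univ.erase u) _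
      (mem_erase.2 ⟨huv.symm, mem_univ v⟩)]
  have h6 : (Fintype.card V - 2 : ℝ) * (h2Q Q - aQ Q) ≤
      ∑ w ∈ (univ.erase u).erase v, (hh Q (κ w + 2) - aQ Q) := by
    have h7 : ∑ _w ∈ (univ.erase u).erase v, (h2Q Q - aQ Q) ≤
        ∑ w ∈ (univ.erase u).erase v, (hh Q (κ w + 2) - aQ Q) := sum_le_sum fun w _ => h4 w
    rw [sum_const, nsmul_eq_mul] at h7
    have h8 : (((univ.erase u).erase v : Finset V).card : ℝ) = Fintype.card V - 2 := by
      rw [card_erase_of_mem (mem_erase.2 ⟨huv.symm, mem_univ v⟩), card_erase_of_mem (mem_univ u),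
        card_univ]
      have h9 : 2 ≤ Fintype.card V := by
        have := Finset.card_le_univ ({u, v} : Finset V)
        rwa [card_pair huv] at this
      rw [Nat.sub_sub, Nat.cast_sub h9]
      norm_num
    rwa [h8] at h7
  linarith

end main

end Vale.Agent.P050.H340.Sub
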