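import Vale.Agent.P050.H340.Sub.Star
import Vale.Agent.P050.H936.Spec2

/-!
The star law, arms of any length: [T2].
-/

set_option linter.unusedSectionVars false

namespace Vale.Agent.P050.H340.Sub

open Finset Vale.Agent.P050.Cart Vale.Agent.P050.Join Vale.Agent.P050.M18 Vale.Agent.P050.H546
open Vale.Agent.P050.H936

/-- [T2] -/
theorem star2Stmt : Star2Stmt := by
  intro V U _ _ _ _ Q hE m μ hm
  have hμ : ∀ z, 0 ≤ mm Q z := hE.mm_nn
  have hK : ∀ (v : V) z t, 0 ≤ zp (nb Q) (m v) z t := fun v z t =>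
    zp_nonneg (fun a b => hE.nb_nn a b) _ z t
  have hK1 : ∀ z, mm Q z ≠ 0 → ∀ v : V, ∑ t, zp (nb Q) (m v) z t = 1 := fun z hz v =>
    row_one hE _ z hz
  have hst : star2 Q m = sl (mm Q) (fun v => zp (nb Q) (m v)) := rfl
  have hmu : ∑ z, mm Q z = 1 := by
    rw [← hE.tot, Fintype.sum_prod_type]
    rfl
  have hnn : ∀ ω, 0 ≤ star2 Q m ω := fun ω => by
    rw [hst]
    exact sl_nonneg hμ hK ω
  refine ⟨hnn, ?_, ?_⟩
  · rw [hst]
    exact sl_total hK1 hmu
  intro u v huv
  have hpair : mar (star2 Q m) (fun ω => (ω.2 u, ω.2 v)) = EE Q (m u + m v) := by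
    funext p
    rw [hst, mar_sl_two hK1 huv p, pair_law hE]
  refine ⟨hpair, ?_⟩
  have ha : ent (mm Q) (fun z => z) = aQ Q := rfl
  have hv : ∀ w, ent (star2 Q m) (fun ω => (ω.1, ω.2 w)) = hh Q (m w) := by
    intro w
    unfold hh
    refine ent_law fun p => ?_
    rw [hst, mar_sl_one hK1 w p, mar_id]
    rfl
  have hz : ent (star2 Q m) (fun ω => ω.1) = aQ Q := by
    rw [← ha]
    refine ent_law fun a => ?_
    exact mar_of_sum (fun F => by rw [hst]; exact sum_sl hK1 F) a
  have htot : ent (star2 Q m) (fun ω => ω) = aQ Q + ∑ w, (hh Q (m w) - aQ Q) := by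
    rw [hst, ent_sl hμ hK hK1, ha]
    rfl
  have h1 := subm hnn (A := fun ω => ω.2) (B := fun ω => (ω.1, ω.2 u, ω.2 v)) (C := fun ω => ω)
    (D := fun ω => (ω.2 u, ω.2 v))
    (fun x y h h' => by
      simp only [Prod.mk.injEq] at h'
      exact Prod.ext h'.1 h)
    (fun x y h => congrArg (fun q : V → U => (q u, q v)) h)
    (fun x y h => by
      simp only [Prod.mk.injEq] at h
      exact Prod.ext h.2.1 h.2.2)
  have h2 := subm hnn (A := fun ω => (ω.1, ω.2 u)) (B := fun ω => (ω.1, ω.2 v))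
    (C := fun ω => (ω.1, ω.2 u, ω.2 v)) (D := fun ω => ω.1)
    (fun x y h h' => by
      simp only [Prod.mk.injEq] at h h'
      exact Prod.ext h.1 (Prod.ext h.2 h'.2))
    (fun x y h => by simp only [Prod.mk.injEq] at h; exact h.1)
    (fun x y h => by simp only [Prod.mk.injEq] at h; exact h.1)
  have h3 : ent (star2 Q m) (fun ω => (ω.2 u, ω.2 v)) = hh Q (m u + m v) := by
    unfold hh
    refine ent_law fun p => ?_
    rw [hpair, mar_id]
  rw [htot, h3] at h1
  rw [hv, hv, hz] at h2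
  -- the other vertices
  have hmono : Monotone (hh Q) := monotone_nat_of_le_succ (H23.hh_mono hE)
  have h4 : ∀ w, hh Q μ - aQ Q ≤ hh Q (m w) - aQ Q := fun w => by
    have h5 : hh Q μ ≤ hh Q (m w) := hmono (hm w)
    linarith
  have h5 : ∑ w, (hh Q (m w) - aQ Q) = (hh Q (m u) - aQ Q) + ((hh Q (m v) - aQ Q) +
      ∑ w ∈ (univ.erase u).erase v, (hh Q (m w) - aQ Q)) := by
    rw [← Finset.add_sum_erase univ _ (mem_univ u), ← Finset.add_sum_erase (univ.erase u) _
      (mem_erase.2 ⟨huv.symm, mem_univ v⟩)]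
  have h6 : (Fintype.card V - 2 : ℝ) * (hh Q μ - aQ Q) ≤
      ∑ w ∈ (univ.erase u).erase v, (hh Q (m w) - aQ Q) := by
    have h7 : ∑ _w ∈ (univ.erase u).erase v, (hh Q μ - aQ Q) ≤
        ∑ w ∈ (univ.erase u).erase v, (hh Q (m w) - aQ Q) := sum_le_sum fun w _ => h4 w
    rw [sum_const, nsmul_eq_mul] at h7
    have h8 : (((univ.erase u).erase v : Finset V).card : ℝ) = Fintype.card V - 2 := by
      rw [card_erase_of_mem (mem_erase.2 ⟨huv.symm, mem_univ v⟩), card_erase_of_mem (mem_univ u),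
        card_univ]
      have h9 : 2 ≤ Fintype.card V := by
        have := Finset.card_le_univ ({u, v} : Finset V)
        rwa [card_pair huv] at this
      rw [Nat.sub_sub, Nat.cast_sub h9]
      norm_num
    rwa [h8] at h7
  linarith

end Vale.Agent.P050.H340.Sub
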