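import Vale.Agent.P050.H936.Spec
import Vale.Agent.P050.M18.Val

/-!
The entropy side of the replaced graphs: [S3].
-/

set_option linter.unusedSectionVars false

namespace Vale.Agent.P050.H340.Sub

open Finset Vale.Agent.P050.Cart Vale.Agent.P050.Join Vale.Agent.P050.M18 Vale.Agent.P050.H546
open Vale.Agent.P050.H936

theorem wt_nonneg {U : Type} [Fintype U] [DecidableEq U] {A : U → U → ℝ}
    (hA : ∀ x y, 0 ≤ A x y) (i j c : ℕ) (x y : U) : 0 ≤ wt A i j c x y :=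
  sum_nonneg fun a _ => sum_nonneg fun b _ => mul_nonneg (mul_nonneg (zp_nonneg hA _ _ _)
    (pow_nonneg (zp_nonneg hA _ _ _) _)) (zp_nonneg hA _ _ _)

/-- [S3] -/
theorem ent_of (h1 : StarStmt) (h2 : KerStmt) (h3 : GInfStmt) : EntStmt := by
  classical
  intro V E U _ _ _ _ _ _ s t hst κ c A Q hE hA hQA
  obtain ⟨e0⟩ := (inferInstance : Nonempty E)
  obtain ⟨hnn, htot, hpair⟩ := h1 V U Q hE κ
  obtain ⟨-, hle, -, -⟩ := h3 U Q hE
  let w : (V → U) → ℝ := fun x =>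
    ∏ e, wt A (κ (s e)) (κ (t e)) (c e) (x (s e)) (x (t e))
  have hw : ∀ x, 0 ≤ w x := fun x => prod_nonneg fun e _ => wt_nonneg hA _ _ _ _ _
  have hker := fun e => h2 U A Q hE hA hQA (κ (s e)) (κ (t e)) (c e)
  have hse : ∀ ω, star Q κ ω ≠ 0 → ∀ e,
      wt A (κ (s e)) (κ (t e)) (c e) (ω.2 (s e)) (ω.2 (t e)) ≠ 0 := by
    intro ω h0 e
    refine (hker e).1 (ω.2 (s e), ω.2 (t e)) ?_
    rw [← (hpair (s e) (t e) (hst e)).1]
    exact mar_ne_zero hnn (fun ω => (ω.2 (s e), ω.2 (t e))) h0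
  have hs : ∀ ω, star Q κ ω ≠ 0 → w ω.2 ≠ 0 := fun ω h0 =>
    prod_ne_zero_iff.2 fun e _ => hse ω h0 e
  obtain ⟨hpos, key⟩ := ent_log_sum hnn htot (fun ω => ω.2) w hw hs
  refine ⟨hpos, ?_⟩
  have hlog : ∑ ω, star Q κ ω * Real.log (w ω.2) = ∑ e, ∑ p, EE Q (κ (s e) + κ (t e) + 4) p *
      Real.log (wt A (κ (s e)) (κ (t e)) (c e) p.1 p.2) := by
    have e1 : ∀ ω, star Q κ ω * Real.log (w ω.2) = ∑ e, star Q κ ω *
        Real.log (wt A (κ (s e)) (κ (t e)) (c e) (ω.2 (s e)) (ω.2 (t e))) := by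
      intro ω
      by_cases h0 : star Q κ ω = 0
      · simp [h0]
      rw [← mul_sum]
      congr 1
      exact Real.log_prod fun e _ => hse ω h0 e
    rw [sum_congr rfl fun ω _ => e1 ω, sum_comm]
    refine sum_congr rfl fun e _ => ?_
    rw [← (hpair (s e) (t e) (hst e)).1]
    exact (sum_mar (star Q κ) (fun ω => (ω.2 (s e), ω.2 (t e)))
      (fun p => Real.log (wt A (κ (s e)) (κ (t e)) (c e) p.1 p.2))).symm
  have hsum : ∑ e, (((κ (s e) : ℝ) + κ (t e) + 4) * hQ Q - ((κ (s e) : ℝ) + κ (t e) + 3) * aQ Q -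
      hh Q (κ (s e) + κ (t e) + 4) + c e * (2 * hQ Q - aQ Q - h2Q Q)) ≤
      ∑ ω, star Q κ ω * Real.log (w ω.2) := by
    rw [hlog]
    exact sum_le_sum fun e _ => (hker e).2
  have hhe : ∑ e, hh Q (κ (s e) + κ (t e) + 4) ≤ hh Q (κ (s e0) + κ (t e0) + 4) +
      ((Fintype.card E : ℝ) - 1) * (2 * aQ Q) := by
    rw [← Finset.add_sum_erase univ _ (mem_univ e0)]
    have h4 : ∑ e ∈ univ.erase e0, hh Q (κ (s e) + κ (t e) + 4) ≤
        ∑ _e ∈ univ.erase e0, 2 * aQ Q := sum_le_sum fun e _ => hle _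
    rw [sum_const, nsmul_eq_mul, card_erase_of_mem (mem_univ e0), card_univ,
      Nat.cast_sub (Fintype.card_pos_iff.2 ⟨e0⟩), Nat.cast_one] at h4
    linarith
  have hent := (hpair (s e0) (t e0) (hst e0)).2
  have hnr : nr s t κ c A = ∑ x, w x := rfl
  rw [hnr]
  have e2 : ∑ e, (((κ (s e) : ℝ) + κ (t e) + 4) * hQ Q - ((κ (s e) : ℝ) + κ (t e) + 3) * aQ Q -
      hh Q (κ (s e) + κ (t e) + 4) + c e * (2 * hQ Q - aQ Q - h2Q Q)) =
      (∑ e, (κ (s e) : ℝ) + ∑ e, (κ (t e) : ℝ) + 4 * Fintype.card E) * hQ Q -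
      (∑ e, (κ (s e) : ℝ) + ∑ e, (κ (t e) : ℝ) + 3 * Fintype.card E) * aQ Q -
      ∑ e, hh Q (κ (s e) + κ (t e) + 4) + (∑ e, (c e : ℝ)) * (2 * hQ Q - aQ Q - h2Q Q) := by
    simp only [sum_add_distrib, sum_sub_distrib, ← sum_mul, sum_const, card_univ, nsmul_eq_mul]
    ring
  have e3 : (∑ e, ((κ (s e) : ℝ) + κ (t e) + 4 + 2 * c e)) =
      ∑ e, (κ (s e) : ℝ) + ∑ e, (κ (t e) : ℝ) + 4 * Fintype.card E + 2 * ∑ e, (c e : ℝ) := by
    simp only [sum_add_distrib, ← mul_sum, sum_const, card_univ, nsmul_eq_mul]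
    ring
  have e4 : (∑ e, ((κ (s e) : ℝ) + κ (t e) + 5 + 3 * c e)) =
      ∑ e, (κ (s e) : ℝ) + ∑ e, (κ (t e) : ℝ) + 5 * Fintype.card E + 3 * ∑ e, (c e : ℝ) := by
    simp only [sum_add_distrib, ← mul_sum, sum_const, card_univ, nsmul_eq_mul]
    ring
  rw [e2] at hsum
  rw [e3, e4]
  have key' : ent (star Q κ) (fun ω => ω.2) + ∑ ω, star Q κ ω * Real.log (w ω.2) ≤
      Real.log (∑ x, w x) := key
  nlinarith [key', hsum, hhe, hent]

end Vale.Agent.P050.H340.Sub
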